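import Vale.Agent.N171G.Main
import Vale.Agent.N171.Main

namespace Vale.Agent.Results.P171.A0GibbsStates

open Vale.Agent.P171 Vale.Agent.N171G MeasureTheory Filter Set

/-- (1) Some stable tempered radial pair potential on three-dimensional space has a phase
transition in sense (b), two invariant Gibbs point processes. (2) For every stable potential with a two-sided
integrable tail, the one-sided derivatives of the pressure are the intensities of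
translation-invariant Gibbs point processes, so (a) implies (b). (3) Every potential with a
non-integrable repulsive core that vanishes at infinity, (4) Lennard-Jones for instance, can be
changed slightly and only far away into one with a dilute and a dense invariant Gibbs process
at every low temperature. (5) The ideal gas has no transition in sense (b). -/
theorem result :
    (∃ φ : ℝ → ℝ, IsPotential φ ∧ Stable φ ∧ Tempered φ ∧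
      ∃ β : ℝ, 0 < β ∧ Coexistence φ β) ∧
    (∀ φ : ℝ → ℝ, IsPotential φ → Stable φ →
      (∃ C ε R₀ : ℝ, 0 < ε ∧ 0 < R₀ ∧ ∀ r : ℝ, R₀ ≤ r → |φ r| ≤ C * r ^ (-(3 + ε))) →
      ∀ β : ℝ, 0 < β → ∀ Pi : ℝ → ℝ, (∀ z : ℝ, 0 < z → HasPressure φ β z (Pi z)) →
        ∀ z : ℝ, 0 < z →
          (∃ dl dr : ℝ, ∃ P Q : Measure Config,
            HasDerivWithinAt Pi dl (Iio z) z ∧ HasDerivWithinAt Pi dr (Ioi z) z ∧
            IsGibbs φ β z P ∧ IsGibbs φ β z Q ∧ Invariant P ∧ Invariant Q ∧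
            intensity P = ENNReal.ofReal (z * dl) ∧ intensity Q = ENNReal.ofReal (z * dr)) ∧
          (¬ DifferentiableAt ℝ Pi z → Coexistence φ β)) ∧
    (∀ ψ : ℝ → ℝ, IsPotential ψ →
      Tendsto (fun r : ℝ => r ^ 3 * ψ r) (nhdsWithin 0 (Ioi 0)) atTop →
      Tendsto ψ atTop (nhds 0) →
      ∀ R η β₀ a b : ℝ, 0 < η → 0 < β₀ → 0 < a → ∃ φ : ℝ → ℝ,
        (∀ r : ℝ, 0 < r → r ≤ R → φ r = ψ r) ∧ (∀ r : ℝ, 0 < r → |φ r - ψ r| ≤ η) ∧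
        IsPotential φ ∧ Stable φ ∧ Tempered φ ∧
        ∀ β : ℝ, β₀ ≤ β → ∃ z : ℝ, 0 < z ∧ ∃ P Q : Measure Config,
          IsGibbs φ β z P ∧ IsGibbs φ β z Q ∧ Invariant P ∧ Invariant Q ∧
          intensity P ≤ ENNReal.ofReal a ∧ ENNReal.ofReal b ≤ intensity Q ∧ intensity Q < ⊤) ∧
    (∀ R η β₀ : ℝ, 0 < η → 0 < β₀ → ∃ φ : ℝ → ℝ,
      (∀ r : ℝ, 0 < r → r ≤ R → φ r = 4 * (r⁻¹ ^ 12 - r⁻¹ ^ 6)) ∧
      (∀ r : ℝ, 0 < r → |φ r - 4 * (r⁻¹ ^ 12 - r⁻¹ ^ 6)| ≤ η) ∧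
      ContinuousOn φ (Ioi 0) ∧ IsPotential φ ∧ Stable φ ∧ Tempered φ ∧
      ∀ β : ℝ, β₀ ≤ β → Coexistence φ β) ∧
    ∀ β : ℝ, ¬ Coexistence 0 β := by
  have key : ∀ R η β₀ : ℝ, 0 < η → 0 < β₀ → ∃ φ : ℝ → ℝ,
      (∀ r : ℝ, 0 < r → r ≤ R → φ r = 4 * (r⁻¹ ^ 12 - r⁻¹ ^ 6)) ∧
      (∀ r : ℝ, 0 < r → |φ r - 4 * (r⁻¹ ^ 12 - r⁻¹ ^ 6)| ≤ η) ∧
      ContinuousOn φ (Ioi 0) ∧ IsPotential φ ∧ Stable φ ∧ Tempered φ ∧
      ∀ β : ℝ, β₀ ≤ β → Coexistence φ β := by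
    intro R η β₀ hη hβ₀
    obtain ⟨φ, p1, p2, p3, ⟨C, ε, R₀, hε, hR, p4⟩, p5, p6, p7, p8⟩ :=
      N171.main_core N171.lj_potential N171.lj_zero N171.lj_inf R 2 hη hβ₀ one_pos
    refine ⟨φ, p1, p2, p3 N171.lj_continuousOn, p5, p6, p7, fun β hβ => ?_⟩
    obtain ⟨z, hz, P, Q, q1, q2, q3, q4, q5, q6, -⟩ :=
      states_of_jump p5 p6 hε hR p4 (hβ₀.trans_le hβ) (p8 β hβ)
    refine ⟨z, hz, P, Q, q1, q2, q3, q4, fun e => ?_⟩
    have h := (ENNReal.ofReal_le_ofReal_iff zero_le_one).1 (q6.trans (e ▸ q5))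
    linarith
  refine ⟨?_, ?_, fun ψ h1 h2 h3 R η β₀ a b hη hβ₀ ha => ?_, key, not_coexistence_zero⟩
  · obtain ⟨φ, -, -, -, p1, p2, p3, p5⟩ := key 1 1 1 one_pos one_pos
    exact ⟨φ, p1, p2, p3, 1, one_pos, p5 1 le_rfl⟩
  · rintro φ h1 h2 ⟨C, ε, R₀, hε, hR, h3⟩ β hβ Pi hPi z hz
    refine ⟨?_, coexistence_of_kink h1 h2 hε hR h3 hβ hPi hz⟩
    obtain ⟨⟨dl, dr, hl, hr⟩, h4⟩ := states h1 h2 hε hR h3 hβ hPi hz
    obtain ⟨-, P, p1, p2, p3⟩ := h4 dl (Or.inl hl)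
    obtain ⟨-, Q, q1, q2, q3⟩ := h4 dr (Or.inr hr)
    exact ⟨dl, dr, P, Q, hl, hr, p1, q1, p2, q2, p3, q3⟩
  · obtain ⟨φ, p1, p2, -, ⟨C, ε, R₀, hε, hR, p4⟩, p5, p6, p7, p8⟩ :=
      N171.main_core h1 h2 h3 R b hη hβ₀ ha
    exact ⟨φ, p1, p2, p5, p6, p7, fun β hβ =>
      states_of_jump p5 p6 hε hR p4 (hβ₀.trans_le hβ) (p8 β hβ)⟩

end Vale.Agent.Results.P171.A0GibbsStates
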