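import Vale.Agent.P171.H709.Defs
import Vale.Agent.N171.Main

namespace Vale.Agent.Results.P171.A0PrescribedCore

open Vale.Agent.P171 Filter

/-- (1) Every potential `ψ` with a non-integrable repulsive core (`r^3 ψ(r) → ∞` as
`r → 0`) that vanishes at infinity can be changed, only beyond any given distance `R` and by at
most any given `η`, into a stable tempered potential with a first-order transition at every
`β ≥ β₀`, the density jumping from at most `a` to at least `b`. (2) The case of the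
Lennard-Jones potential. -/
theorem result :
    (∀ ψ : ℝ → ℝ, IsPotential ψ →
      Tendsto (fun r : ℝ => r ^ 3 * ψ r) (nhdsWithin 0 (Set.Ioi 0)) atTop →
      Tendsto ψ atTop (nhds 0) →
      ∀ R η β₀ a b : ℝ, 0 < η → 0 < β₀ → 0 < a → a < b → ∃ φ : ℝ → ℝ,
        (∀ r : ℝ, 0 < r → r ≤ R → φ r = ψ r) ∧ (∀ r : ℝ, 0 < r → |φ r - ψ r| ≤ η) ∧
        (ContinuousOn ψ (Set.Ioi 0) → ContinuousOn φ (Set.Ioi 0)) ∧
        (∃ C ε R₀ : ℝ, 0 < ε ∧ 0 < R₀ ∧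
          ∀ r : ℝ, R₀ ≤ r → -(C * r ^ (-(3 + ε))) ≤ φ r ∧ φ r ≤ 0) ∧
        IsPotential φ ∧ Stable φ ∧ Tempered φ ∧ HasPhaseTransition φ ∧
        ∀ β : ℝ, β₀ ≤ β → DensityJump φ β a b) ∧
    (∀ R η β₀ a b : ℝ, 0 < η → 0 < β₀ → 0 < a → a < b → ∃ φ : ℝ → ℝ,
      (∀ r : ℝ, 0 < r → r ≤ R → φ r = 4 * (r⁻¹ ^ 12 - r⁻¹ ^ 6)) ∧
      (∀ r : ℝ, 0 < r → |φ r - 4 * (r⁻¹ ^ 12 - r⁻¹ ^ 6)| ≤ η) ∧
      ContinuousOn φ (Set.Ioi 0) ∧ IsPotential φ ∧ Stable φ ∧ Tempered φ ∧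
      HasPhaseTransition φ ∧ ∀ β : ℝ, β₀ ≤ β → DensityJump φ β a b) := by
  refine ⟨fun ψ h1 h2 h3 R η β₀ a b hη hβ₀ ha hab => ?_,
    fun R η β₀ a b hη hβ₀ ha hab => ?_⟩
  · obtain ⟨φ, p1, p2, p3, p4, p5, p6, p7, p8⟩ := N171.main_core h1 h2 h3 R b hη hβ₀ ha
    exact ⟨φ, p1, p2, p3, p4, p5, p6, p7,
      H709.hasPhaseTransition_of_jump hβ₀ hab (p8 β₀ le_rfl), p8⟩
  · obtain ⟨φ, p1, p2, p3, -, p5, p6, p7, p8⟩ := N171.main_core N171.lj_potential N171.lj_zero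
      N171.lj_inf R b hη hβ₀ ha
    exact ⟨φ, p1, p2, p3 N171.lj_continuousOn, p5, p6, p7,
      H709.hasPhaseTransition_of_jump hβ₀ hab (p8 β₀ le_rfl), p8⟩

end Vale.Agent.Results.P171.A0PrescribedCore
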